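import Crest.Agent.X262.Lat.IDefs
import Crest.Agent.X262.Man.Lin
import Crest.Agent.X262.PL.Ang
import Crest.Agent.X262.Lat.LDefs
import Crest.Agent.X262.Man.PM
import Crest.Agent.X262.Lat.UDefs
import Crest.Agent.X262.PD.Cx
import Crest.Agent.R235.HZFin_524

-- ▼ part X262/Lat/Cnx
section

/-!
# Row 262, LAT (helper31): the connection form of a frame of a smooth line bundle

* `prj s`  : the orthogonal projector on the line of `s`; `eq_prj`;
* `cn s`   : the connection form `Im (σ ds) / 2π` of the frame `s`;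
* `h.fm`   : the real Chern form, `h.rcl_fm : rcl h.ec = h.c1`;
* `res_d_cn` : `d (cn s) + fm Q = 0` along `X`; `res_cn` : `cn (g s) = cn s + ang g` along `X`.
-/

set_option autoImplicit false
set_option linter.unusedSectionVars false

open Filter Topology Complex Matrix
open scoped ContDiff ComplexOrder

noncomputable section

namespace Crest.Agent.X262.Lat

open Crest.Agent.R208.F Crest.Agent.R208.FI Crest.Agent.R208.CW Crest.Agent.R208.T
open Crest.Agent.X262.Man Crest.Agent.X262.PL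

variable {N : Type} [Fintype N] [DecidableEq N]

/-! ### linear algebra -/

/-- a vector as a column -/
def colv (s : N → ℂ) : Matrix N Unit ℂ := Matrix.of fun i _ => s i

/-- the dual row -/
def drow (s : N → ℂ) : Matrix Unit N ℂ := Matrix.of fun _ j => (star s ⬝ᵥ s)⁻¹ * star (s j)

/-- the orthogonal projector on a line -/
def prj (s : N → ℂ) : Matrix N N ℂ := colv s * drow s

variable {s : N → ℂ}

theorem nq_ne (h : s ≠ 0) : star s ⬝ᵥ s ≠ 0 := fun h0 => h (dotProduct_star_self_eq_zero.1 h0)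

theorem star_nq (s : N → ℂ) : star (star s ⬝ᵥ s) = star s ⬝ᵥ s := by
  rw [← star_dotProduct_star, star_star, dotProduct_comm]

theorem prj_apply (s : N → ℂ) (i j : N) : prj s i j = s i * ((star s ⬝ᵥ s)⁻¹ * star (s j)) := by
  simp [prj, colv, drow, Matrix.mul_apply]

theorem drow_colv (h : s ≠ 0) : drow s * colv s = 1 := by
  ext i j
  simp only [drow, colv, Matrix.mul_apply, Matrix.of_apply, mul_assoc, ← Finset.mul_sum]
  rw [Subsingleton.elim i j, Matrix.one_apply_eq]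
  exact inv_mul_cancel₀ (nq_ne h)

theorem prj_idem (h : s ≠ 0) : prj s * prj s = prj s := by
  rw [prj, Matrix.mul_assoc, ← Matrix.mul_assoc (drow s), drow_colv h, Matrix.one_mul]

theorem prj_herm (s : N → ℂ) : (prj s)ᴴ = prj s := by
  ext i j
  rw [Matrix.conjTranspose_apply, prj_apply, prj_apply, star_mul', star_mul', star_inv₀, star_nq,
    star_star]
  ring

theorem prj_trace (h : s ≠ 0) : (prj s).trace = 1 := by
  rw [prj, Matrix.trace_mul_comm, drow_colv h]
  simp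

theorem mul_colv (Q : Matrix N N ℂ) (s : N → ℂ) : Q * colv s = colv (Q *ᵥ s) := rfl

theorem prj_mulVec (h : s ≠ 0) : prj s *ᵥ s = s := by
  have h1 : prj s * colv s = colv s := by
    rw [prj, Matrix.mul_assoc, drow_colv h, Matrix.mul_one]
  exact funext fun i => congrFun (congrFun h1 i) ()

theorem eq_prj {Q : Matrix N N ℂ} (h1 : Q * Q = Q) (h2 : Qᴴ = Q) (h3 : Q.trace = 1)
    (h4 : Q *ᵥ s = s) (h : s ≠ 0) : Q = prj s := by
  have e1 : Q * prj s = prj s := by rw [prj, ← Matrix.mul_assoc, mul_colv, h4]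
  have e2 : prj s * Q = prj s := by
    have := congrArg Matrix.conjTranspose e1
    rwa [Matrix.conjTranspose_mul, h2, prj_herm] at this
  refine sub_eq_zero.1 (Matrix.trace_conjTranspose_mul_self_eq_zero_iff.1 ?_)
  rw [Matrix.conjTranspose_sub, h2, prj_herm, sub_mul, mul_sub, mul_sub, h1, e1, e2, prj_idem h,
    sub_self, sub_zero, Matrix.trace_sub, h3, prj_trace h, sub_self]

theorem colv_smul (c : ℂ) (s : N → ℂ) : colv (c • s) = colv s * Matrix.of fun _ _ : Unit => c := by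
  ext i j
  simp [colv, Matrix.mul_apply, mul_comm]

theorem drow_smul {c : ℂ} (hc : c ≠ 0) (s : N → ℂ) :
    drow (c • s) = (Matrix.of fun _ _ : Unit => c⁻¹) * drow s := by
  ext i j
  have h1 : star c ≠ 0 := star_ne_zero.2 hc
  simp only [drow, Matrix.mul_apply, Matrix.of_apply, Fintype.sum_unique, star_smul,
    smul_dotProduct, dotProduct_smul, smul_eq_mul, Pi.smul_apply, star_mul', mul_inv]
  field_simp

theorem prj_smul {c : ℂ} (hc : c ≠ 0) (h : s ≠ 0) : prj (c • s) = prj s :=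
  (eq_prj (prj_idem h) (prj_herm s) (prj_trace h) (by rw [mulVec_smul, prj_mulVec h])
    (smul_ne_zero hc h)).symm

/-! ### smoothness -/

section smooth

variable {G : Type} [NormedAddCommGroup G] [NormedSpace ℝ G] {s : G → N → ℂ} {x : G}
  {k : WithTop ℕ∞}

theorem sm_colv (h : ContDiffAt ℝ k s x) : SM k (fun y => colv (s y)) x :=
  fun i _ => contDiffAt_pi.1 h i

theorem sm_drow (h : ContDiffAt ℝ k s x) (h0 : s x ≠ 0) : SM k (fun y => drow (s y)) x := by
  have h1 : ∀ j, ContDiffAt ℝ k (fun y => star (s y j)) x := fun j =>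
    (Complex.conjCLE : ℂ ≃L[ℝ] ℂ).contDiff.contDiffAt.comp x (contDiffAt_pi.1 h j)
  have h2 : ContDiffAt ℝ k (fun y => star (s y) ⬝ᵥ s y) x :=
    ContDiffAt.sum fun j _ => (h1 j).mul (contDiffAt_pi.1 h j)
  exact fun _ j => (h2.inv (nq_ne h0)).mul (h1 j)

theorem sm_prj (h : ContDiffAt ℝ k s x) (h0 : s x ≠ 0) : SM k (fun y => prj (s y)) x :=
  (sm_colv h).mul (sm_drow h h0)

end smooth

/-! ### the connection form -/

variable {E : Type} [NormedAddCommGroup E] [NormedSpace ℝ E] [FiniteDimensional ℝ E] {X : Set E}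
  {d : ℕ} {x : E}

theorem DD_congr {m l : Type*} {A B : E → Matrix m l ℂ} (h : A =ᶠ[𝓝 x] B) : DD A x = DD B x :=
  Matrix.ext fun i j => dC_congr (h.mono fun y hy => by simp only [hy])

theorem dl_congr' (hX : Sub d X) (hx : x ∈ X) {m l : Type*} [Fintype m] [Fintype l]
    {A B : E → Matrix m l ℂ} (hA : SM 1 A x) (hB : SM 1 B x)
    (h : ∀ᶠ y in 𝓝 x, y ∈ X → A y = B y) : dl X A x = dl X B x :=
  Matrix.ext fun i j => rs_dC_congr hX hx (CD.of_fun (hA i j)) (CD.of_fun (hB i j))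
    (h.mono fun y hy hy' => by simp only [hy hy'])

/-- the complex connection form of a frame -/
def th (σ : E → Matrix Unit N ℂ) (s : E → Matrix N Unit ℂ) (y : E) : CF E :=
  (hat E (σ y) * DD s y).trace

/-- the curvature (proof by helper5) -/
theorem d_th {σ : E → Matrix Unit N ℂ} {s : E → Matrix N Unit ℂ}
    (hσ : SM 1 σ x) (hs : SM 2 s x) (h1 : ∀ᶠ y in 𝓝 x, σ y * s y = 1) :
    dC (th σ s) x = sf 1 (fun y => s y * σ y) x := by
  have hs1 : SM 1 s x := hs.of_le (by norm_num)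
  have hD : MD 1 (DD s) x := hs.MD_DD (by norm_num)
  have e1 : dC (th σ s) x = (DD σ x * DD s x).trace := by
    change dC (fun y => (hat E (σ y) * DD s y).trace) x = _
    rw [dC_trace (hσ.hat.mul hD), dM_mul hσ.hat hD, dM_DD hs, Matrix.mul_zero, add_zero]
    rfl
  have e2 : DD (fun y => s y * σ y) x = DD s x * hat E (σ x) + hat E (s x) * DD σ x :=
    DD_mul hs1 hσ
  have e3 : DD σ x * hat E (s x) = - (hat E (σ x) * DD s x) := by
    rw [eq_neg_iff_add_eq_zero, ← DD_mul hσ hs1, DD_congr h1, DD_const]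
  have e4 : hat E (σ x) * hat E (s x) = 1 := by rw [← hat_mul, h1.self_of_nhds, hat_one]
  set t := hat E (σ x) * DD s x with ht
  have e5 : t * t = 0 := by
    have h2 : invC (t () ()) = - t () () := by
      have h3 : invM t = - t := by rw [ht, invM_mul, invM_hat, invM_DD, Matrix.mul_neg]
      exact congrFun (congrFun h3 ()) ()
    have h3 := odd_commC h2 (t () ())
    rw [h2, neg_mul, eq_neg_iff_add_eq_zero, ← two_smul ℂ] at h3
    ext i j : 1
    rw [Matrix.mul_apply, Fintype.sum_unique]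
    exact (smul_eq_zero.1 h3).resolve_left two_ne_zero
  have e6 : hat E (σ x) * DD (fun y => s y * σ y) x = t * hat E (σ x) + DD σ x := by
    rw [e2, Matrix.mul_add, ← Matrix.mul_assoc, ← Matrix.mul_assoc, e4, Matrix.one_mul]
  have e7 : DD (fun y => s y * σ y) x * hat E (s x) = DD s x - hat E (s x) * t := by
    rw [e2, Matrix.add_mul, Matrix.mul_assoc, Matrix.mul_assoc, e4, Matrix.mul_one, e3,
      Matrix.mul_neg, sub_eq_add_neg]
  rw [e1, sf, hat_mul, Matrix.mul_assoc, trace_hat_comm, mul_one, pow_two,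
    ← Matrix.mul_assoc, Matrix.mul_assoc, e6, e7, Matrix.add_mul, Matrix.mul_sub, Matrix.mul_sub,
    Matrix.mul_assoc t, Matrix.mul_assoc t, ← ht, ← Matrix.mul_assoc (hat E (σ x)), e4,
    Matrix.one_mul, sub_self, zero_add, ← Matrix.mul_assoc (DD σ x), e3, Matrix.neg_mul, e5,
    neg_zero, sub_zero]

/-- the complex connection form of a frame -/
def tc (s : E → N → ℂ) : E → CF E := th (fun y => drow (s y)) fun y => colv (s y)

/-- the connection form of a frame -/
def cn (s : E → N → ℂ) (y : E) : Ext E := (2 * Real.pi)⁻¹ • (tc s y).im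

/-- the real Chern form -/
def fm (Q : E → Matrix N N ℂ) (y : E) : Ext E := (kap • sf 1 Q y).re

variable {s s' : E → N → ℂ} {Q : E → Matrix N N ℂ}

theorem kap_re : kap.re = 0 := by
  rw [kap, show (2 * Real.pi : ℂ) = ((2 * Real.pi : ℝ) : ℂ) by push_cast; rfl, div_ofReal_re, I_re,
    zero_div]

theorem kap_im : kap.im = (2 * Real.pi)⁻¹ := by
  rw [kap, show (2 * Real.pi : ℂ) = ((2 * Real.pi : ℝ) : ℂ) by push_cast; rfl, div_ofReal_im, I_im,
    one_div]

theorem fm_eq (Q : E → Matrix N N ℂ) (y : E) : fm Q y = -((2 * Real.pi)⁻¹ • (sf 1 Q y).im) := by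
  rw [fm, Cx.csmul_re, kap_re, kap_im, zero_smul, zero_sub]

theorem cd_tc (h : ContDiffAt ℝ ∞ s x) (h0 : s x ≠ 0) : CD ∞ (tc s) x :=
  ((sm_drow h h0).hat.mul ((sm_colv h).MD_DD inf_add_one)).trace

theorem contDiffAt_cn (h : ContDiffAt ℝ ∞ s x) (h0 : s x ≠ 0) : ContDiffAt ℝ ∞ (cn s) x :=
  (cd_tc h h0).im.const_smul _

theorem inv_cn (s : E → N → ℂ) (y : E) : inv (cn s y) = -cn s y := by
  have h : invC (tc s y) = -tc s y := by
    rw [tc, th, invC_trace, invM_mul, invM_hat, invM_DD, Matrix.mul_neg, Matrix.trace_neg]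
  rw [cn, map_smul, ← smul_neg]
  exact congrArg _ (congrArg Cx.im h)

theorem isDeg_fm (Q : E → Matrix N N ℂ) : Hom 2 (fm Q) := fun y => by
  rw [fm_eq, ← neg_smul]
  exact (degC_sf 1 Q y).2.smul _

theorem Ln.ec (h : Ln X Q) : EC X (fm Q) := by
  have h1 := mem_Z_iff.1 ((Z X).smul_mem (sf_mem_Z_gen h.idf 1) kap)
  exact ⟨h1.1.1, h1.1.2.1, h1.1.2.2⟩

theorem Ln.rcl_fm (hX : Sub d X) (h : Ln X Q) : rcl h.ec = h.c1 := by
  have h1 := mem_Z_iff.1 ((Z X).smul_mem (sf_mem_Z_gen h.idf 1) kap)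
  have h2 : EC X fun y => (kap • sf 1 Q y).im := ⟨h1.2.1, h1.2.2.1, h1.2.2.2⟩
  have h3 : h.c1 = rcl h.ec + I • rcl h2 := by
    rw [← cls_eq_rcl, Ln.c1, ← cls_smul]
    rfl
  have h4 := h.conj_c1 hX
  have h5 : ∀ {a : E → Ext E} (ha : EC X a), H.conj X (rcl ha) = rcl ha := fun ha => by
    rw [rcl, H.conj_cls]
    exact cls_of_eq _ _ (funext fun x => Cx.ext rfl neg_zero)
  rw [h3, map_add, H.conj_smul, h5, h5, conj_I, add_right_inj, neg_smul, neg_eq_iff_add_eq_zero,
    ← two_smul ℂ] at h4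
  rw [h3, (smul_eq_zero.1 h4).resolve_left two_ne_zero, add_zero]

/-- the curvature of a frame of `Q` -/
theorem rs_d_tc (hX : Sub d X) (hx : x ∈ X) (h : Ln X Q) (hs : ContDiffAt ℝ ∞ s x) (h0 : s x ≠ 0)
    (hQ : ∀ᶠ y in 𝓝 x, y ∈ X → Q y *ᵥ s y = s y) : rs X x (dC (tc s) x) = rs X x (sf 1 Q x) := by
  have h1 : ∀ᶠ y in 𝓝 x, s y ≠ 0 := hs.continuousAt.eventually_ne h0
  have h2 : ∀ᶠ y in 𝓝 x, y ∈ X → prj (s y) = Q y := by
    filter_upwards [h1, hQ] with y hy hy' hyX
    exact (eq_prj (h.idf.idem y hyX) (h.herm y hyX) (h.tr y hyX) (hy' hyX) hy).symm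
  rw [tc, d_th ((sm_drow hs h0).of_le one_le_inf) ((sm_colv hs).of_le two_le)
    (h1.mono fun y hy => drow_colv hy), rs_sf, rs_sf, ← h2.self_of_nhds hx,
    ← dl_congr' hX hx ((sm_prj hs h0).of_le one_le_inf) (h.idf.s1 hx) h2]
  rfl

theorem res_d_cn (hX : Sub d X) (hx : x ∈ X) (h : Ln X Q) (hs : ContDiffAt ℝ ∞ s x) (h0 : s x ≠ 0)
    (hQ : ∀ᶠ y in 𝓝 x, y ∈ X → Q y *ᵥ s y = s y) :
    pb (Tan X x).subtype (R208.F.d (cn s) x + fm Q x) = 0 := by
  have h1 : pb (Tan X x).subtype (R208.F.d (fun y => (tc s y).im) x) =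
      pb (Tan X x).subtype (sf 1 Q x).im := congrArg Cx.im (rs_d_tc hX hx h hs h0 hQ)
  have h2 : R208.F.d (cn s) x = (2 * Real.pi)⁻¹ • R208.F.d (fun y => (tc s y).im) x :=
    d_const_smul _ ((cd_tc hs h0).im.differentiableAt (by simp))
  rw [h2, fm_eq, map_add, map_neg, map_smul, map_smul, h1, add_neg_cancel]

theorem tc_smul {g : E → ℂ} (hs : ContDiffAt ℝ 1 s x) (h0 : s x ≠ 0) (hg : ContDiffAt ℝ 1 g x)
    (hg0 : g x ≠ 0) : tc (fun y => g y • s y) x = tc s x + dz ((g x)⁻¹ • fderiv ℝ g x) := by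
  have h1 : SM 1 (fun y => Matrix.of fun _ _ : Unit => g y) x := fun _ _ => hg
  have h2 : hat E (Matrix.of fun _ _ : Unit => g x) * hat E (Matrix.of fun _ _ : Unit => (g x)⁻¹) =
      1 := by
    rw [← hat_mul, ← hat_one]
    congr 1
    ext i j
    simp [Matrix.mul_apply, hg0]
  simp only [tc, th, colv_smul]
  rw [drow_smul hg0, DD_mul (sm_colv hs) h1, hat_mul, Matrix.mul_add, Matrix.trace_add,
    Matrix.mul_assoc, trace_hat_comm, Matrix.mul_assoc, Matrix.mul_assoc, h2, Matrix.mul_one,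
    Matrix.mul_assoc, ← Matrix.mul_assoc (hat E (drow (s x))), ← hat_mul, drow_colv h0, hat_one,
    Matrix.one_mul, map_smul, ← dC_fun (hg.differentiableAt one_ne_zero).hasFDerivAt]
  congr 1
  rw [Matrix.trace, Fintype.sum_unique, Matrix.diag_apply, Matrix.mul_apply, Fintype.sum_unique,
    Algebra.smul_def]
  rfl

theorem cn_smul {g : E → ℂ} (hs : ContDiffAt ℝ 1 s x) (h0 : s x ≠ 0) (hg : ContDiffAt ℝ 1 g x)
    (hg0 : g x ≠ 0) : cn (fun y => g y • s y) x = cn s x + ang g x := by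
  rw [cn, tc_smul hs h0 hg hg0, Cx.add_im, smul_add, ang_eq, dz_im]
  rfl

theorem res_cn_congr (hX : Sub d X) (hx : x ∈ X) (hs : ContDiffAt ℝ 1 s x)
    (hs' : ContDiffAt ℝ 1 s' x) (h : ∀ᶠ y in 𝓝 x, y ∈ X → s y = s' y) :
    pb (Tan X x).subtype (cn s x) = pb (Tan X x).subtype (cn s' x) := by
  have h1 : rs X x (tc s x) = rs X x (tc s' x) := by
    have h2 := dl_congr' hX hx (sm_colv hs) (sm_colv hs') (h.mono fun y hy hy' => by rw [hy hy'])
    rw [tc, tc, th, th, rs_trace, rs_trace, rsM_mul, rsM_mul, h.self_of_nhds hx]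
    exact congrArg (fun A => (rsM X x (hat E (drow (s' x))) * A).trace) h2
  rw [cn, cn, map_smul, map_smul]
  exact congrArg _ (congrArg Cx.im h1)

/-- change of frame -/
theorem res_cn (hX : Sub d X) (hx : x ∈ X) {g : E → ℂ} (hs : ContDiffAt ℝ 1 s x) (h0 : s x ≠ 0)
    (hs' : ContDiffAt ℝ 1 s' x) (hg : ContDiffAt ℝ 1 g x) (hg0 : g x ≠ 0)
    (h : ∀ᶠ y in 𝓝 x, y ∈ X → s' y = g y • s y) :
    pb (Tan X x).subtype (cn s' x) = pb (Tan X x).subtype (cn s x + ang g x) := by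
  rw [res_cn_congr (s' := fun y => g y • s y) hX hx hs' (hg.smul hs) h, cn_smul hs h0 hg hg0]

end Crest.Agent.X262.Lat
end
end

-- ▼ part X262/Lat/Iso
section

/-!
# Row 262, LAT (helper31): algebraic line bundles as fields of projectors

* `Cd ε a A c`  : `A g` are connection forms of `O(a)` in the frames `g`, with Chern form `c`;
* `Iso.cd`      : the connection of a projector field whose image is `O(a)`;
* `exists_iso`  : every Cartier divisor is the image of a projector field.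
-/

set_option autoImplicit false
set_option linter.unusedSectionVars false

open Filter Topology Set
open scoped Matrix ContDiff

noncomputable section

namespace Crest.Agent.X262.Lat

open Crest.Agent.R208.F Crest.Agent.R208.FI Crest.Agent.R208.CW Crest.Agent.R208.T
open Crest.Agent.X262.Man Crest.Agent.X262.PL
open Crest.Agent.X277 Crest.Agent.X277.Lef Crest.Agent.X277.AN.G1 Crest.Agent.X277.BD
open Crest.Agent.X277.BD.Br

variable {F : Type} [Field F] [Algebra ℂ F] {P : PModel ℂ F} {n : ℕ} {X : AnP P n}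
  {E : Type} [NormedAddCommGroup E] [NormedSpace ℝ E] [FiniteDimensional ℝ E]

/-- connection forms of `O(a)` with Chern form `c` -/
structure Cd (ε : Emb X.A E) (a : BD ℂ F) (A : F → E → Ext E) (c : E → Ext E) : Prop where
  ec : EC ε.X c
  deg : Hom 2 c
  deg1 : ∀ g, Hom 1 (A g)
  odd : ∀ g q, inv (A g q) = -A g q
  sm : ∀ x g, At a x g → ContDiffAt ℝ ∞ (A g) (ε.j x)
  cur : ∀ x g, At a x g → pb (Tan ε.X (ε.j x)).subtype (d (A g) (ε.j x) + c (ε.j x)) = 0
  chg : ∀ x g g', At a x g → At a x g' → ∀ u : E → ℂ, ContDiffAt ℝ 1 u (ε.j x) →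
    (∀ᶠ y in 𝓝 x, u (ε.j y) = ev (g' / g) y) → pb (Tan ε.X (ε.j x)).subtype (A g' (ε.j x)) =
      pb (Tan ε.X (ε.j x)).subtype (A g (ε.j x) + ang u (ε.j x))

variable (ε : Emb X.A E) {a : BD ℂ F}

theorem ev_amb {x : Pts P} {p : E → Prop} (h : ∀ᶠ y in 𝓝 x, p (ε.j y)) :
    ∀ᶠ q in 𝓝 (ε.j x), q ∈ ε.X → p q := by
  rw [← eventually_nhdsWithin_iff, Emb.X, ← ε.isClosedEmbedding.isEmbedding.map_nhds_eq,
    eventually_map]
  exact h

theorem hom_cn {N : Type} [Fintype N] [DecidableEq N] (s : E → N → ℂ) : Hom 1 (cn s) := fun y =>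
  (degC_trace ((mDeg_hat (E := E) (drow (s y))).mul (mDeg_DD (fun y => colv (s y)) y))).2.smul _

theorem Iso.cd {N : Type} [Fintype N] [DecidableEq N] {Q : E → Matrix N N ℂ} (h : Ln ε.X Q)
    {s : F → Pts P → N → ℂ} (hs : Iso X a (fun x => Q (ε.j x)) s) : ∃ A, Cd ε a A (fm Q) := by
  choose S h1 h2 using fun g => ε.exists_ext_on (isOpen_at a g) (hs.sm g)
  have h3 : ∀ {x g}, At a x g → ContDiffAt ℝ ∞ (S g) (ε.j x) := fun hx => h1 _ _ (ε.mem_op.2 hx)
  have h4 : ∀ {x g}, At a x g → S g (ε.j x) ≠ 0 := fun hx => by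
    rw [h2 _ _ hx]
    exact hs.ne _ _ hx
  refine ⟨fun g => cn (S g), h.ec, isDeg_fm Q, fun g => hom_cn _, fun g => inv_cn _,
    fun x g hx => contDiffAt_cn (h3 hx) (h4 hx), fun x g hx => ?_, fun x g g' hx hx' u hu e => ?_⟩
  · refine res_d_cn ε.sub (ε.mem x) h (h3 hx) (h4 hx) (ev_amb ε ?_)
    filter_upwards [hx.eventually] with y hy
    rw [h2 _ _ hy]
    exact hs.mem _ _ hy
  · refine res_cn ε.sub (ε.mem x) ((h3 hx).of_le one_le_inf) (h4 hx) ((h3 hx').of_le one_le_inf) hu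
      (by rw [e.self_of_nhds]; exact hx'.ev_div_ne hx) (ev_amb ε ?_)
    filter_upwards [hx.eventually, hx'.eventually, e] with y hy hy' ey
    rw [h2 _ _ hy, h2 _ _ hy', ey]
    exact hs.tr _ _ _ hy hy'

include ε in
/-- frames of a Cartier divisor -/
theorem exists_frames (ha : a ∈ On P) : ∃ (N : Type) (_ : Fintype N) (s : F → Pts P → N → ℂ),
    (∀ g, SmOn X.A {x | At a x g} (s g)) ∧ (∀ x g, At a x g → s g x ≠ 0) ∧
      ∀ x g g', At a x g → At a x g' → s g' x = ev (g' / g) x • s g x := by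
  choose G hG using ha
  choose φ h1 _ h2 _ h3 using fun x => exists_contDiff_tsupport_subset (n := ⊤)
    ((ε.isOpen_op (isOpen_at a (G x))).mem_nhds (ε.mem_op.2 (hG x)))
  obtain ⟨T, -, hT⟩ := isCompact_univ.elim_nhds_subcover (fun x => {y | φ x (ε.j y) ≠ 0})
    fun x _ => ((h2 x).continuous.comp ε.cont).continuousAt.eventually_ne
      (by simp only [Function.comp_apply, h3]; exact one_ne_zero)
  have h4 : ∀ {x y}, φ x (ε.j y) ≠ 0 → At a y (G x) := fun h =>
    ε.mem_op.1 (h1 _ (subset_tsupport _ h))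
  refine ⟨T, inferInstance, fun g y i => φ i (ε.j y) * ev (g / G i) y, fun g k x hk hx => ?_,
    fun x g hx h0 => ?_, fun x g g' hx hx' => funext fun i => ?_⟩
  · refine contDiffAt_pi.2 fun i => ?_
    have h5 : ContDiffAt ℝ ∞ (fun z => φ i (ε.j ((X.A.e k).symm z))) (X.A.e k x) :=
      ε.smOn_comp (U := univ) (fun _ _ => (h2 i).contDiffAt) k x hk trivial
    by_cases h : ε.j x ∈ tsupport (φ i)
    · exact (Complex.ofRealCLM.contDiff.contDiffAt.comp _ h5).mul
        (smOn_ev X _ k x hk (LP.mem_of_ne (hx.ev_div_ne (ε.mem_op.1 (h1 _ h)))))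
    · have h6 : ∀ᶠ z in 𝓝 (X.A.e k x), ε.par k z ∉ tsupport (φ i) :=
        (ε.contDiffAt_par ((X.A.e k).map_source hk)).continuousAt.eventually
          (p := fun q => q ∉ tsupport (φ i))
          (by rw [ε.par_e hk]; exact (isClosed_tsupport _).isOpen_compl.mem_nhds h)
      refine (contDiffAt_const (c := 0)).congr_of_eventuallyEq (h6.mono fun z hz => ?_)
      have h7 : φ i (ε.j ((X.A.e k).symm z)) = 0 := image_eq_zero_of_notMem_tsupport hz
      simp only [h7, Complex.ofReal_zero, zero_mul]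
  · obtain ⟨i, hi, h5⟩ := mem_iUnion₂.1 (hT (mem_univ x))
    exact mul_ne_zero (Complex.ofReal_ne_zero.2 h5) (hx.ev_div_ne (h4 h5)) (congrFun h0 ⟨i, hi⟩)
  · by_cases h : φ i (ε.j x) = 0
    · simp [h]
    · rw [Pi.smul_apply, smul_eq_mul, mul_left_comm, ← LP.v_mul _ (LP.mem_of_ne (hx'.ev_div_ne hx))
        (LP.mem_of_ne (hx.ev_div_ne (h4 h))), div_mul_div_cancel₀ hx.ne]

/-- **every Cartier divisor is the image of a field of projectors** -/
theorem exists_iso (ha : a ∈ On P) : ∃ (N : Type) (_ : Fintype N) (_ : DecidableEq N)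
    (Q : E → Matrix N N ℂ) (s : F → Pts P → N → ℂ), Ln ε.X Q ∧ Iso X a (fun x => Q (ε.j x)) s := by
  classical
  obtain ⟨N, _, s, h1, h2, h3⟩ := exists_frames ε ha
  choose G hG using ha
  have h4 : ∀ {x g}, At a x g → prj (s (G x) x) = prj (s g x) := fun hx => by
    rw [h3 _ _ _ hx (hG _), prj_smul ((hG _).ev_div_ne hx) (h2 _ _ hx)]
  have h5 : ∀ i j, X.A.Sm fun x => prj (s (G x) x) i j := fun i j => by
    refine smOn_univ.1 fun k x hk _ => ?_
    have h6 := sm_prj (h1 (G x) k x hk (hG x))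
      (by rw [(X.A.e k).left_inv hk]; exact h2 _ _ (hG x)) i j
    refine h6.congr_of_eventuallyEq ?_
    have h7 : ∀ᶠ z in 𝓝 (X.A.e k x), At a ((X.A.e k).symm z) (G x) :=
      ((X.A.e k).continuousAt_symm ((X.A.e k).map_source hk)).eventually
        (by rw [(X.A.e k).left_inv hk]; exact (hG x).eventually)
    exact h7.mono fun z hz => by simp only [h4 hz]
  choose Q h6 h7 using fun i j => ε.exists_ext (h5 i j)
  have h8 : ∀ x, (Matrix.of fun i j => Q i j (ε.j x)) = prj (s (G x) x) := fun x =>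
    Matrix.ext fun i j => h7 i j x
  refine ⟨N, _, inferInstance, fun q => Matrix.of fun i j => Q i j q, s,
    ⟨⟨fun q _ i j => (h6 i j).contDiffAt, ε.forall_X.2 fun x => ?_⟩, ε.forall_X.2 fun x => ?_,
      ε.forall_X.2 fun x => ?_⟩, h1, fun x g hx => ?_, h2, h3⟩
  · rw [h8, prj_idem (h2 _ _ (hG x))]
  · rw [h8, prj_herm]
  · rw [h8, prj_trace (h2 _ _ (hG x))]
  · simp only [h8, h4 hx, prj_mulVec (h2 _ _ hx)]

end Crest.Agent.X262.Lat
end
end

-- ▼ part X262/Lat/Uni

/-!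
# Row 262, LAT (helper31): the integral classes of a surface are a unimodular lattice

* `nondeg_two` : Poincaré duality in degree two;
* `exists_basis` : integral classes `γ i` which span `H²`, with a unimodular intersection matrix;
* `uni_emb` : the two statements of `UNI`.
-/

set_option autoImplicit false
set_option linter.unusedSectionVars false

open Matrix
open scoped Manifold ContDiff

noncomputable section

namespace Crest.Agent.X262.Lat

open Crest.Agent.R208.F Crest.Agent.R208.FI Crest.Agent.R208.CW Crest.Agent.R208.T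
open Crest.Agent.X262.Man
open Crest.Agent.R275.Geo (Cn Atl)

theorem ip_repr {M : Type} [TopologicalSpace M] [T2Space M] [CompactSpace M]
    [ChartedSpace R240.E4 M] [IsManifold 𝓘(ℝ, R240.E4) ∞ M] {F : R240.Ch.Z2 M}
    (h : ∀ x, R240.W (R235.val F x) (R235.val F x) ≠ 0) {m : ℕ}
    (e : Module.Basis (Fin m) ℝ (R235.H2 M)) (a b : R235.H2 M) :
    R235.ip F a b = ∑ i, e.repr a i * R235.ip F (e i) b := by
  have h1 := congrArg (fun z => R235.ipB F (R235.vol_of_ne h) z b) (e.sum_repr a)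
  simp only [map_sum, map_smul, LinearMap.sum_apply, LinearMap.smul_apply, smul_eq_mul] at h1
  exact h1.symm

variable {M : Type} [TopologicalSpace M] [T2Space M] [CompactSpace M] {A : Atl 2 M}
  {E : Type} [NormedAddCommGroup E] [NormedSpace ℝ E] [FiniteDimensional ℝ E] (ε : Emb A E)

theorem nondeg_two {x : H ε.X} (hx : x ∈ HD ε.X (2 * 1))
    (h : ∀ (w : E → Ext E) (hw : EC ε.X w), Hom 2 w → ε.integ (x * rcl hw) = 0) : x = 0 := by
  refine PD.nondeg_H ε.clo ε.isOri (by decide) fun y => ?_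
  have hy : y ∈ ⨆ k, HD ε.X (2 * k) := by
    rw [HD_iSup]
    trivial
  refine Submodule.iSup_induction _ (motive := fun y => ε.integ (x * y) = 0) hy
    (fun k y hy => ?_) (by rw [mul_zero, map_zero])
    fun a b ha hb => by rw [mul_add, map_add, ha, hb, add_zero]
  by_cases hk : k = 1
  · subst hk
    obtain ⟨a, b, ha, hb, h1, h2, rfl⟩ := exists_rcl_HD hy
    rw [mul_add, mul_smul_comm, map_add, map_smul, h a ha h1, h b hb h2, smul_zero, add_zero]
  · exact integ_HD ε.clo ε.isOri (by omega) (HD_mul hx hy)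

theorem exists_basis (h1 : P1Stmt) (h2 : P2Stmt) (h3 : P3Stmt) {om : E → Ext E} (ho : EC ε.X om)
    (ho2 : Hom 2 om) (hp : ∀ i, ∀ z ∈ (A.e i).target, 0 < topC 2 (pull (ε.par i) (om * om) z)) :
    ∃ (m : ℕ) (γ : Fin m → H ε.X) (Q : Matrix (Fin m) (Fin m) ℤ), (∀ i, γ i ∈ Lam ε.X) ∧
      (∀ i j, ε.integ (γ i * γ j) = Q i j) ∧ IsUnit Q.det ∧
      ∀ x ∈ HD ε.X (2 * 1), ∃ c : Fin m → ℂ, x = ∑ i, c i • γ i := by
  obtain ⟨F, hF⟩ := h1 M A E ε om ho ho2
  obtain ⟨hW, hI⟩ := h2 M A E ε om F ho ho2 hF hp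
  have hV := R235.vol_of_ne hW
  obtain ⟨m, e, Q, e1, e2, e3⟩ := R235.HZFin_524.hzlat (Mf A) F hW
  have e4 : ∀ i, e i ∈ R235.HZ (Mf A) := fun i => by
    rw [e3]
    exact ⟨Pi.single i 1, by simp [Pi.single_apply]⟩
  choose N p a hl hc ha using e4
  choose R hR w hw hw2 hwa hwc using fun i => h3 M A E ε (N i) (p i) (a i) (hl i) (hc i)
  have key : ∀ {u v : E → Ext E} (hu : EC ε.X u) (hv : EC ε.X v) {s t : R240.Ch.Z2 (Mf A)},
      Hom 2 u → Hom 2 v → Rp ε u s → Rp ε v t →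
      ε.integ (rcl hu * rcl hv) = R235.ip F (R235.cls s) (R235.cls t) := by
    intro u v hu hv s t u2 v2 us vt
    rw [← rcl_mul, ε.integ_rcl, R235.ip_cls hV, hI u v s t hu u2 hv v2 us vt]
  have sp : ∀ {u : E → Ext E} (hu : EC ε.X u), Hom 2 u →
      ∃ c : Fin m → ℂ, rcl hu = ∑ i, c i • rcl (hw i) := by
    intro u hu u2
    obtain ⟨s, hs⟩ := h1 M A E ε u hu u2
    obtain ⟨r, hr⟩ : ∃ r : Fin m → ℝ, ∀ b, R235.ip F (R235.cls s) b =
        ∑ i, r i * R235.ip F (R235.cls (a i)) b := ⟨_, fun b => by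
      simp only [ha]
      exact ip_repr hW e _ b⟩
    refine ⟨fun i => r i, sub_eq_zero.1 (nondeg_two ε
      (sub_mem (rcl_mem_HD hu u2) (Submodule.sum_mem _ fun i _ =>
        Submodule.smul_mem _ _ (rcl_mem_HD _ (hw2 i)))) fun v hv v2 => ?_)⟩
    obtain ⟨t, ht⟩ := h1 M A E ε v hv v2
    rw [sub_mul, map_sub, key hu hv u2 v2 hs ht, Finset.sum_mul, map_sum, sub_eq_zero]
    rw [hr, Complex.ofReal_sum]
    refine Finset.sum_congr rfl fun i _ => ?_
    rw [smul_mul_assoc, map_smul, key (hw i) hv (hw2 i) v2 (hwa i) ht, Complex.ofReal_mul]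
    rfl
  refine ⟨m, fun i => rcl (hw i), Q, fun i => ?_, fun i j => ?_, e2, fun x hx => ?_⟩
  · simp only [hwc]
    exact (hR i).c1_mem
  · have h4 := (congrArg₂ (R235.ip F) (ha i) (ha j)).trans (e1 i j)
    rw [key (hw i) (hw j) (hw2 i) (hw2 j) (hwa i) (hwa j), h4, Complex.ofReal_intCast]
  · obtain ⟨u, v, hu, hv, u2, v2, rfl⟩ := exists_rcl_HD hx
    obtain ⟨c, hc⟩ := sp hu u2
    obtain ⟨c', hc'⟩ := sp hv v2
    refine ⟨c + Complex.I • c', ?_⟩
    simp only [hc, hc', Pi.add_apply, Pi.smul_apply, add_smul, Finset.sum_add_distrib,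
      Finset.smul_sum, smul_assoc]

theorem uni_emb (h1 : P1Stmt) (h2 : P2Stmt) (h3 : P3Stmt) {om : E → Ext E} (ho : EC ε.X om)
    (ho2 : Hom 2 om) (hp : ∀ i, ∀ z ∈ (A.e i).target, 0 < topC 2 (pull (ε.par i) (om * om) z)) :
    Submodule.span ℂ (Lam ε.X : Set (H ε.X)) = HD ε.X (2 * 1) ∧
      ∀ x ∈ HD ε.X (2 * 1), (∀ y ∈ Lam ε.X, ∃ k : ℤ, ε.integ (x * y) = k) → x ∈ Lam ε.X := by
  obtain ⟨m, γ, Q, e1, e2, e3, e4⟩ := exists_basis ε h1 h2 h3 ho ho2 hp
  refine ⟨le_antisymm (Submodule.span_le.2 fun a ha => Lam.mem_HD ε.sub ha) fun x hx => ?_,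
    fun x hx h => ?_⟩
  · obtain ⟨c, rfl⟩ := e4 x hx
    exact Submodule.sum_mem _ fun i _ => Submodule.smul_mem _ _ (Submodule.subset_span (e1 i))
  · obtain ⟨c, rfl⟩ := e4 x hx
    choose k hk using fun j => h _ (e1 j)
    have h4 : c ᵥ* Q.map (Int.castRingHom ℂ) = fun j => (k j : ℂ) := funext fun j => by
      rw [← hk, Finset.sum_mul, map_sum]
      simp only [smul_mul_assoc, map_smul, e2]
      rfl
    have h5 : ∀ i, c i = ((k ᵥ* Q⁻¹) i : ℤ) := fun i => by
      have h6 := congrFun (congrArg (· ᵥ* (Q⁻¹).map (Int.castRingHom ℂ)) h4) i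
      simp only [vecMul_vecMul, ← Matrix.map_mul, Matrix.mul_nonsing_inv Q e3,
        Matrix.map_one _ (map_zero _) (map_one _), vecMul_one] at h6
      rw [h6]
      simp [vecMul, dotProduct]
    refine sum_mem fun i _ => ?_
    rw [h5, Int.cast_smul_eq_zsmul]
    exact zsmul_mem (e1 i) _

end Crest.Agent.X262.Lat
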